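import Mathlib
import Vale.Agent.P297.H572.Z3.Defs

/-!
P297, block [Z3]: a linear automorphism of a short Weierstrass cubic that preserves the
differential is the translation by a point of order dividing three.
-/

namespace Vale.Agent.P297.Z3.Lin

variable {k : Type} [Field k] [CharZero k]

/-- The ternary cubic with coefficients `g` vanishes identically. -/
theorem coeffs_zero (g : Fin 10 → k) (h : ∀ x y z : k, tc g x y z = 0) (i : Fin 10) : g i = 0 := by
  have h2 : (2 : k) ≠ 0 := two_ne_zero
  have e0 := h 1 0 0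
  have e6 := h 0 1 0
  have e9 := h 0 0 1
  have a1 := h 1 1 0
  have a2 := h 1 (-1) 0
  have b1 := h 1 0 1
  have b2 := h 1 0 (-1)
  have c1 := h 0 1 1
  have c2 := h 0 1 (-1)
  have d1 := h 1 1 1
  simp only [tc] at e0 e6 e9 a1 a2 b1 b2 c1 c2 d1
  have f0 : g 0 = 0 := by linear_combination e0
  have f6 : g 6 = 0 := by linear_combination e6
  have f9 : g 9 = 0 := by linear_combination e9
  have f1 : g 1 = 0 := by
    apply (mul_eq_zero.1 (show 2 * g 1 = 0 by linear_combination a1 - a2 - 2 * f6)).resolve_left h2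
  have f3 : g 3 = 0 := by linear_combination a1 - f0 - f1 - f6
  have f2 : g 2 = 0 := by
    apply (mul_eq_zero.1 (show 2 * g 2 = 0 by linear_combination b1 - b2 - 2 * f9)).resolve_left h2
  have f5 : g 5 = 0 := by linear_combination b1 - f0 - f2 - f9
  have f7 : g 7 = 0 := by
    apply (mul_eq_zero.1 (show 2 * g 7 = 0 by linear_combination c1 - c2 - 2 * f9)).resolve_left h2
  have f8 : g 8 = 0 := by linear_combination c1 - f6 - f7 - f9
  have f4 : g 4 = 0 := by linear_combination d1 - f0 - f1 - f2 - f3 - f5 - f6 - f7 - f8 - f9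
  fin_cases i <;> assumption

/-- The coefficients of `F(B v) - D F(v)` for `F = y²z - x³ - axz² - bz³` and `B` with the entries
`p q r / s t u / l m n` (rows). -/
def cf (a b D p q r s t u l m n : k) : Fin 10 → k :=
  ![s ^ 2 * l - p ^ 3 - a * p * l ^ 2 - b * l ^ 3 + D,
    s ^ 2 * m + 2 * s * t * l - 3 * p ^ 2 * q - a * (q * l ^ 2 + 2 * p * l * m) - 3 * b * l ^ 2 * m,
    s ^ 2 * n + 2 * s * u * l - 3 * p ^ 2 * r - a * (r * l ^ 2 + 2 * p * l * n) - 3 * b * l ^ 2 * n,
    t ^ 2 * l + 2 * t * s * m - 3 * q ^ 2 * p - a * (p * m ^ 2 + 2 * q * m * l) - 3 * b * m ^ 2 * l,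
    2 * s * t * n + 2 * s * u * m + 2 * t * u * l - 6 * p * q * r -
      2 * a * (p * m * n + q * l * n + r * l * m) - 6 * b * l * m * n,
    u ^ 2 * l + 2 * u * s * n - 3 * r ^ 2 * p - a * (p * n ^ 2 + 2 * r * n * l) -
      3 * b * n ^ 2 * l + a * D,
    t ^ 2 * m - q ^ 3 - a * q * m ^ 2 - b * m ^ 3,
    t ^ 2 * n + 2 * t * u * m - 3 * q ^ 2 * r - a * (r * m ^ 2 + 2 * q * m * n) -
      3 * b * m ^ 2 * n - D,
    u ^ 2 * m + 2 * u * t * n - 3 * r ^ 2 * q - a * (q * n ^ 2 + 2 * r * n * m) -
      3 * b * n ^ 2 * m,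
    u ^ 2 * n - r ^ 3 - a * r * n ^ 2 - b * n ^ 3 + b * D]

omit [CharZero k] in
theorem tc_cf (a b D p q r s t u l m n x y z : k) :
    tc (cf a b D p q r s t u l m n) x y z =
      tc (wf a b) (p * x + q * y + r * z) (s * x + t * y + u * z) (l * x + m * y + n * z) -
        D * tc (wf a b) x y z := by
  simp only [tc, cf, wf]
  simp only [Matrix.cons_val]
  ring


/-- The normalised matrices: the lower middle entry is one. -/
theorem normalised {a b D p q r s t u l n : k} (hab : 4 * a ^ 3 + 27 * b ^ 2 ≠ 0) (hD : D ≠ 0)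
    (hdet : D = p * (t * n - u) - q * (s * n - u * l) + r * (s - t * l))
    (h : ∀ i, cf a b D p q r s t u l 1 n i = 0) :
    t ≠ 0 ∧ ∃ μ : k, μ ^ 2 = 3 * q ∧ a = 2 * μ * t - 3 * q ^ 2 ∧
      b = t ^ 2 + 2 * q ^ 3 - 2 * μ * t * q ∧ p = μ * q - 2 * t ∧ s = - μ * t ∧ l = μ ∧
      r = 3 * q * t - q ^ 2 * μ ∧ u = -3 * t ^ 2 + q * t * μ ∧ n = t - q * μ := by
  have h0 := h 0
  have h1 := h 1
  have h2 := h 2
  have h3 := h 3
  have h4 := h 4
  have h6 := h 6
  have h7 := h 7
  have h8 := h 8
  simp only [cf, Matrix.cons_val] at h0 h1 h2 h3 h4 h6 h7 h8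
  clear h
  have hb : b = t ^ 2 - q ^ 3 - a * q := by linear_combination -h6
  by_cases ht : t = 0
  · exfalso
    subst ht
    have hq : (3 * q ^ 2 + a) * (l * q - p) = 0 := by
      rw [hb] at h3
      linear_combination h3
    have hqa : 3 * q ^ 2 + a ≠ 0 := by
      intro h0
      apply hab
      have ha : a = -3 * q ^ 2 := by linear_combination h0
      rw [hb, ha]
      ring
    have hp : p = l * q := by
      have := (mul_eq_zero.1 hq).resolve_left hqa
      linear_combination -this
    have hs : s ^ 2 = 0 := by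
      rw [hb, hp] at h1
      linear_combination h1
    have hs' : s = 0 := by simpa using hs
    apply hD
    rw [hdet, hp, hs']
    ring
  refine ⟨ht, (3 * q ^ 2 + a) / (2 * t), ?_⟩
  obtain ⟨μ, hμ⟩ : ∃ μ, μ = (3 * q ^ 2 + a) / (2 * t) := ⟨_, rfl⟩
  rw [← hμ]
  have h2t : 2 * t ≠ 0 := mul_ne_zero two_ne_zero ht
  have ha : a = 2 * μ * t - 3 * q ^ 2 := by
    rw [hμ]
    field_simp
    ring
  clear hμ
  have hb' : b = t ^ 2 + 2 * q ^ 3 - 2 * μ * t * q := by
    rw [hb, ha]
    ring
  clear hb
  obtain ⟨U, hU⟩ : ∃ U, U = p - q * l := ⟨_, rfl⟩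
  obtain ⟨V, hV⟩ : ∃ V, V = r - q * n := ⟨_, rfl⟩
  have hp : p = q * l + U := by linear_combination -hU
  have hr : r = q * n + V := by linear_combination -hV
  have hs : s = t * l + μ * U := by
    have : (2 * t) * (s - (t * l + μ * U)) = 0 := by
      rw [hU]
      rw [ha, hb'] at h3
      linear_combination h3
    have := (mul_eq_zero.1 this).resolve_left h2t
    linear_combination this
  obtain ⟨c, hc⟩ : ∃ c, c = u - t * n - μ * V := ⟨_, rfl⟩
  have hu : u = t * n + μ * V + c := by linear_combination -hc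
  clear hU hV hc h3 h6
  subst ha hb' hp hr hs hu
  have hD' : D = - U * c := by
    rw [hdet]
    ring
  clear hdet
  subst hD'
  have hU0 : U ≠ 0 := by
    rintro rfl
    simp at hD
  have hc0 : c ≠ 0 := by
    rintro rfl
    simp at hD
  have e1 : μ ^ 2 = 3 * q := by
    have : U ^ 2 * (μ ^ 2 - 3 * q) = 0 := by linear_combination h1
    have := (mul_eq_zero.1 this).resolve_left (pow_ne_zero 2 hU0)
    linear_combination this
  have e2 : U = - 2 * t := by
    have : c * (2 * t + U) = 0 := by linear_combination h7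
    have := (mul_eq_zero.1 this).resolve_left hc0
    linear_combination this
  subst e2
  have e3 : c = - 4 * t ^ 2 := by
    have : (2 * t) * (c + 4 * t ^ 2) = 0 := by
      linear_combination h0 - 4 * t ^ 2 * l * e1
    have := (mul_eq_zero.1 this).resolve_left h2t
    linear_combination this
  subst e3
  have h16 : (16 : k) ≠ 0 := by norm_num
  have ht3 : 16 * t ^ 3 ≠ 0 := mul_ne_zero h16 (pow_ne_zero 3 ht)
  have e4 : l = μ := by
    have : (16 * t ^ 3) * (l - μ) = 0 := by
      linear_combination - h4 - 4 * t * V * e1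
    have := (mul_eq_zero.1 this).resolve_left ht3
    linear_combination this
  subst e4
  have e5 : V = 2 * q * t := by
    have : (12 * t ^ 2) * (V - 2 * q * t) = 0 := by
      linear_combination - h2 + (-4 * t * V * l + 4 * t ^ 2 * n + 8 * t ^ 3) * e1
    have := (mul_eq_zero.1 this).resolve_left (mul_ne_zero (by norm_num) (pow_ne_zero 2 ht))
    linear_combination this
  subst e5
  have e6 : n = t - q * l := by
    have : (16 * t ^ 3) * (n - (t - q * l)) = 0 := by
      linear_combination - h8 + 4 * t ^ 2 * q ^ 2 * e1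
    have := (mul_eq_zero.1 this).resolve_left ht3
    linear_combination this
  subst e6
  refine ⟨e1, rfl, rfl, by ring, by ring, rfl, by ring, by ring, by ring⟩

/-- The case where the point at infinity is fixed. -/
theorem fixed {a b D p q r s t u l n : k} (hD : D ≠ 0)
    (hdet : D = p * (t * n - u * 0) - q * (s * n - u * l) + r * (s * 0 - t * l))
    (h : ∀ i, cf a b D p q r s t u l 0 n i = 0) :
    p ≠ 0 ∧ q = 0 ∧ r = 0 ∧ s = 0 ∧ t = p ∧ u = 0 ∧ l = 0 ∧ n = p := by
  have h0 := h 0
  have h1 := h 1
  have h2 := h 2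
  have h3 := h 3
  have h4 := h 4
  have h6 := h 6
  have h7 := h 7
  have h8 := h 8
  simp only [cf, Matrix.cons_val] at h0 h1 h2 h3 h4 h6 h7 h8
  clear h
  have hq : q = 0 := by
    have : q ^ 3 = 0 := by linear_combination -h6
    simpa using this
  subst hq
  have ht : t ≠ 0 := by
    rintro rfl
    apply hD
    rw [hdet]
    ring
  have hl : l = 0 := by
    have : t ^ 2 * l = 0 := by linear_combination h3
    exact (mul_eq_zero.1 this).resolve_left (pow_ne_zero 2 ht)
  subst hl
  have hD' : D = p * t * n := by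
    rw [hdet]
    ring
  clear hdet
  subst hD'
  have hp : p ≠ 0 := by
    rintro rfl
    simp at hD
  have hn : n ≠ 0 := by
    rintro rfl
    simp at hD
  have hs : s = 0 := by
    have : (2 * t * n) * s = 0 := by linear_combination h4
    exact (mul_eq_zero.1 this).resolve_left (mul_ne_zero (mul_ne_zero two_ne_zero ht) hn)
  subst hs
  have hu : u = 0 := by
    have : (2 * t * n) * u = 0 := by linear_combination h8
    exact (mul_eq_zero.1 this).resolve_left (mul_ne_zero (mul_ne_zero two_ne_zero ht) hn)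
  subst hu
  have hr : r = 0 := by
    have : (3 * p ^ 2) * r = 0 := by linear_combination -h2
    exact (mul_eq_zero.1 this).resolve_left (mul_ne_zero three_ne_zero (pow_ne_zero 2 hp))
  subst hr
  have e1 : t = p := by
    have : (t * n) * (t - p) = 0 := by linear_combination h7
    have := (mul_eq_zero.1 this).resolve_left (mul_ne_zero ht hn)
    linear_combination this
  subst e1
  have e2 : n = t := by
    have : (t ^ 2) * (n - t) = 0 := by linear_combination h0
    have := (mul_eq_zero.1 this).resolve_left (pow_ne_zero 2 ht)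
    linear_combination this
  exact ⟨hp, rfl, rfl, rfl, rfl, rfl, rfl, e2⟩

omit [CharZero k] in
/-- Sums on `wc a b` from the slope. -/
theorem add_eq [DecidableEq k] {a b x y q t x' y' : k} (h : (wc a b).toAffine.Nonsingular x y)
    (hT : (wc a b).toAffine.Nonsingular q t)
    (hxy : ¬ (x = q ∧ y = (wc a b).toAffine.negY q t))
    (hx' : x' = ((wc a b).toAffine.slope x q y t) ^ 2 - x - q)
    (hy' : y' = - (((wc a b).toAffine.slope x q y t) * (x' - x) + y)) :
    ∃ h' : (wc a b).toAffine.Nonsingular x' y',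
      WeierstrassCurve.Affine.Point.some _ _ h' =
        WeierstrassCurve.Affine.Point.some x y h + WeierstrassCurve.Affine.Point.some q t hT := by
  have key := WeierstrassCurve.Affine.nonsingular_add h hT hxy
  have hX : (wc a b).toAffine.addX x q ((wc a b).toAffine.slope x q y t) = x' := by
    rw [hx']
    simp [WeierstrassCurve.Affine.addX, wc]
  have hY : (wc a b).toAffine.addY x q y ((wc a b).toAffine.slope x q y t) = y' := by
    rw [WeierstrassCurve.Affine.addY, WeierstrassCurve.Affine.negAddY, hX, hy']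
    simp [WeierstrassCurve.Affine.negY, wc]
  rw [WeierstrassCurve.Affine.Point.add_some hxy]
  refine ⟨by rw [← hX, ← hY]; exact key, ?_⟩
  simp only [hX, hY]

theorem nonsing {a b x y : k} (hy : y ≠ 0) (he : y ^ 2 = x ^ 3 + a * x + b) :
    (wc a b).toAffine.Nonsingular x y := by
  rw [WeierstrassCurve.Affine.nonsingular_iff', WeierstrassCurve.Affine.equation_iff]
  refine ⟨by simp [wc, he], Or.inr ?_⟩
  simp [wc, hy]

omit [CharZero k] in
theorem eqn {a b x y : k} (h : (wc a b).toAffine.Nonsingular x y) :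
    y ^ 2 = x ^ 3 + a * x + b := by
  have := ((wc a b).toAffine.nonsingular_iff' x y).1 h
  have := ((wc a b).toAffine.equation_iff x y).1 this.1
  simpa [wc] using this

/-- The translation by a point of order three. -/
theorem translate [DecidableEq k] {a b q t μ : k} (ht : t ≠ 0) (hμ : μ ^ 2 = 3 * q)
    (ha : a = 2 * μ * t - 3 * q ^ 2) (hb : b = t ^ 2 + 2 * q ^ 3 - 2 * μ * t * q) :
    ∃ T : (wc a b).toAffine.Point, (3 : ℕ) • T = 0 ∧
    ∀ (x y : k) (h : (wc a b).toAffine.Nonsingular x y), μ * x + y + (t - q * μ) ≠ 0 →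
      ∃ h' : (wc a b).toAffine.Nonsingular
        (((μ * q - 2 * t) * x + q * y + (3 * q * t - q ^ 2 * μ)) / (μ * x + y + (t - q * μ)))
        ((-μ * t * x + t * y + (-3 * t ^ 2 + q * t * μ)) / (μ * x + y + (t - q * μ))),
        WeierstrassCurve.Affine.Point.some _ _ h' =
          WeierstrassCurve.Affine.Point.some x y h + T := by
  have h2t : 2 * t ≠ 0 := mul_ne_zero two_ne_zero ht
  have het : t ^ 2 = q ^ 3 + a * q + b := by rw [ha, hb]; ring
  have hT : (wc a b).toAffine.Nonsingular q t := nonsing ht het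
  have hneg : (wc a b).toAffine.negY q t = - t := by
    simp [WeierstrassCurve.Affine.negY, wc]
  have htt : t ≠ -t := by
    intro h
    apply h2t
    linear_combination h
  have hslope : (wc a b).toAffine.slope q q t t = μ := by
    rw [WeierstrassCurve.Affine.slope_of_Y_ne rfl (by rw [hneg]; exact htt), hneg]
    simp only [wc]
    rw [ha]
    field_simp
    ring
  have hTT : ∃ h' : (wc a b).toAffine.Nonsingular q (-t),
      WeierstrassCurve.Affine.Point.some _ _ h' =
        WeierstrassCurve.Affine.Point.some q t hT + WeierstrassCurve.Affine.Point.some q t hT := by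
    apply add_eq hT hT
    · rw [hneg]
      exact fun h => htt h.2
    · rw [hslope]
      linear_combination - hμ
    · rw [hslope]
      ring
  refine ⟨WeierstrassCurve.Affine.Point.some q t hT, ?_, ?_⟩
  · obtain ⟨h', e⟩ := hTT
    rw [show (3 : ℕ) = 2 + 1 from rfl, add_smul, one_smul, two_smul, ← e]
    exact WeierstrassCurve.Affine.Point.add_of_Y_eq rfl (by rw [hneg])
  · intro x y h hL
    have hxy := eqn h
    obtain ⟨L, hLd⟩ : ∃ L, L = μ * x + y + (t - q * μ) := ⟨_, rfl⟩
    rw [← hLd] at hL ⊢
    have key : (y - t - μ * (x - q)) * L = (x - q) ^ 3 := by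
      rw [ha, hb] at hxy
      rw [hLd]
      linear_combination hxy - (x - q) ^ 2 * hμ
    have hx1 : ((μ * q - 2 * t) * x + q * y + (3 * q * t - q ^ 2 * μ)) / L =
        q - 2 * t * (x - q) / L := by
      field_simp
      rw [hLd]
      ring
    have hy1 : (-μ * t * x + t * y + (-3 * t ^ 2 + q * t * μ)) / L =
        2 * t * (y - t) / L - t := by
      field_simp
      rw [hLd]
      ring
    rw [hx1, hy1]
    apply add_eq h hT
    · rintro ⟨rfl, hy⟩
      apply hL
      rw [hLd, hy, hneg]
      ring
    · by_cases hx : x = q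
      · subst hx
        have hy : y = t := by
          have : (y - t) * L = 0 := by linear_combination key
          have := (mul_eq_zero.1 this).resolve_right hL
          linear_combination this
        subst hy
        rw [hslope]
        simp only [sub_self, mul_zero, zero_div, sub_zero]
        linear_combination - hμ
      · rw [WeierstrassCurve.Affine.slope_of_X_ne hx]
        have hx' : x - q ≠ 0 := sub_ne_zero.2 hx
        field_simp
        linear_combination (-(L - 2 * t)) * key - (x - q) ^ 2 * L * hμ +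
          L * (y - t - μ * (x - q)) * hLd
    · by_cases hx : x = q
      · subst hx
        have hy : y = t := by
          have : (y - t) * L = 0 := by linear_combination key
          have := (mul_eq_zero.1 this).resolve_right hL
          linear_combination this
        subst hy
        rw [hslope]
        simp
      · rw [WeierstrassCurve.Affine.slope_of_X_ne hx]
        have hx' : x - q ≠ 0 := sub_ne_zero.2 hx
        field_simp
        ring

omit [CharZero k] in
theorem mulVec_three (B : Matrix (Fin 3) (Fin 3) k) (x y z : k) :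
    B.mulVec ![x, y, z] = ![B 0 0 * x + B 0 1 * y + B 0 2 * z,
      B 1 0 * x + B 1 1 * y + B 1 2 * z, B 2 0 * x + B 2 1 * y + B 2 2 * z] := by
  ext i
  fin_cases i <;> simp [Matrix.mulVec, dotProduct, Fin.sum_univ_three]

omit [CharZero k] in
theorem transport {a b X Y x' y' : k} {R : (wc a b).toAffine.Point} (hX : X = x') (hY : Y = y')
    (h : ∃ h' : (wc a b).toAffine.Nonsingular x' y',
      WeierstrassCurve.Affine.Point.some _ _ h' = R) :
    ∃ h' : (wc a b).toAffine.Nonsingular X Y,
      WeierstrassCurve.Affine.Point.some _ _ h' = R := by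
  subst hX hY
  exact h

end Vale.Agent.P297.Z3.Lin

namespace Vale.Agent.P297.Z3

open Lin in
/-- [Z3] Linear automorphisms of a short Weierstrass cubic preserving the differential are
translations by points of order dividing three. -/
theorem stmtLin : StmtLin := by
  intro k _ _ _ a b B hab hD hB
  have hdet := B.det_fin_three
  have hF : ∀ x y z : k, tc (wf a b) (B 0 0 * x + B 0 1 * y + B 0 2 * z)
      (B 1 0 * x + B 1 1 * y + B 1 2 * z) (B 2 0 * x + B 2 1 * y + B 2 2 * z) =
        B.det * tc (wf a b) x y z := by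
    intro x y z
    have := hB ![x, y, z]
    rw [mulVec_three] at this
    simpa [tv] using this
  have hv0 : ∀ x y : k, B.mulVec ![x, y, 1] 0 = B 0 0 * x + B 0 1 * y + B 0 2 := fun x y => by
    rw [mulVec_three]
    simp
  have hv1 : ∀ x y : k, B.mulVec ![x, y, 1] 1 = B 1 0 * x + B 1 1 * y + B 1 2 := fun x y => by
    rw [mulVec_three]
    simp
  have hv2 : ∀ x y : k, B.mulVec ![x, y, 1] 2 = B 2 0 * x + B 2 1 * y + B 2 2 := fun x y => by
    rw [mulVec_three]
    simp
  by_cases hm : B 2 1 = 0
  · have hc := coeffs_zero (cf a b B.det (B 0 0) (B 0 1) (B 0 2) (B 1 0) (B 1 1) (B 1 2)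
      (B 2 0) (B 2 1) (B 2 2)) (fun x y z => by rw [tc_cf, hF, sub_self])
    rw [hm] at hc
    obtain ⟨hp, e1, e2, e3, e4, e5, e6, e7⟩ := fixed hD (by rw [hdet, hm]; ring) hc
    refine ⟨0, smul_zero _, ?_⟩
    intro x y h _
    refine transport (x' := x) (y' := y) ?_ ?_ ⟨h, (add_zero _).symm⟩
    · rw [hv0, hv2, e1, e2, e6, hm, e7]
      simp only [zero_mul, zero_add, add_zero]
      field_simp
    · rw [hv1, hv2, e3, e4, e5, e6, hm, e7]
      simp only [zero_mul, zero_add, add_zero]
      field_simp
  · obtain ⟨w, hw⟩ : ∃ w, w = (B 2 1)⁻¹ := ⟨_, rfl⟩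
    have hw0 : w ≠ 0 := by rw [hw]; exact inv_ne_zero hm
    have hw1 : w * B 2 1 = 1 := by rw [hw]; exact inv_mul_cancel₀ hm
    have hc := coeffs_zero (cf a b (w ^ 3 * B.det) (w * B 0 0) (w * B 0 1) (w * B 0 2)
      (w * B 1 0) (w * B 1 1) (w * B 1 2) (w * B 2 0) (w * B 2 1) (w * B 2 2))
      (fun x y z => by
        have := hF x y z
        rw [tc_cf]
        simp only [tc, wf, Matrix.cons_val] at this ⊢
        linear_combination w ^ 3 * this)
    rw [hw1] at hc
    obtain ⟨ht, μ, hμ, ha, hb, e1, e2, e3, e4, e5, e6⟩ := normalised hab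
      (mul_ne_zero (pow_ne_zero 3 hw0) hD)
      (by rw [hdet]; linear_combination (-w ^ 2 * (B 0 0 * B 1 2 - B 0 2 * B 1 0)) * hw1) hc
    obtain ⟨T, hT3, hT⟩ := translate ht hμ ha hb
    refine ⟨T, hT3, ?_⟩
    intro x y h hL
    rw [hv2] at hL
    have hL' : μ * x + y + (w * B 1 1 - w * B 0 1 * μ) =
        w * (B 2 0 * x + B 2 1 * y + B 2 2) := by
      linear_combination (-x) * e3 - y * hw1 - e6
    refine transport ?_ ?_ (hT x y h (by rw [hL']; exact mul_ne_zero hw0 hL))
    · rw [hv0, hv2, hL', ← e1, ← e4]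
      field_simp
    · rw [hv1, hv2, hL', ← e2, ← e5]
      field_simp

end Vale.Agent.P297.Z3
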