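import Vale.Agent.P297.H72.Fib

/-!
The generic point of a plane curve.
-/

open Polynomial

namespace Vale.Agent.P297.H124

open Vale.Agent.P297 Vale.Agent.P297.H72

theorem isPrimitive_of_irreducible {π : ℂ[X][X]} (hπ : Irreducible π) (hdeg : 0 < π.natDegree) :
    π.IsPrimitive := by
  intro r hr
  obtain ⟨q, hq⟩ := hr
  rcases hπ.isUnit_or_isUnit hq with h | h
  · exact isUnit_C.1 h
  · exfalso
    obtain ⟨u, hu, rfl⟩ := Polynomial.isUnit_iff.1 h
    rw [hq, ← C_mul, natDegree_C] at hdeg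
    exact lt_irrefl _ hdeg

/-- **[P1]** generic point of the plane curve `π = 0` -/
theorem exists_plane (π : ℂ[X][X]) (hπ : Irreducible π) (hdeg : 0 < π.natDegree) :
    ∃ v l : Om, Transcendental ℂ v ∧ ∀ p : ℂ[X][X], ev v l p = 0 ↔ π ∣ p := by
  let v : Om := algebraMap (RatFunc ℂ) Om RatFunc.X
  have hv : Transcendental ℂ v :=
    (transcendental_algebraMap_iff (algebraMap (RatFunc ℂ) Om).injective).2
      (RatFunc.transcendental_X (K := ℂ))
  have key : ∀ (l : Om) (p : ℂ[X][X]), ev v l p =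
      aeval l (p.map (algebraMap ℂ[X] (RatFunc ℂ))) := by
    intro l p
    induction p using Polynomial.induction_on' with
    | add p q hp hq => rw [map_add, Polynomial.map_add, map_add, hp, hq]
    | monomial n b =>
      rw [← C_mul_X_pow_eq_monomial, map_mul, map_pow, ev_C, ev_X, Polynomial.map_mul,
        Polynomial.map_pow, map_X, map_C, map_mul, map_pow, aeval_C, aeval_X]
      congr 1
      have h1 : (algebraMap ℂ[X] (RatFunc ℂ) b) = aeval (RatFunc.X : RatFunc ℂ) b :=
        (RatFunc.aeval_X_left_eq_algebraMap b).symm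
      rw [h1, ← Polynomial.aeval_algebraMap_apply]
  have hprim := isPrimitive_of_irreducible hπ hdeg
  have hirr : Irreducible (π.map (algebraMap ℂ[X] (RatFunc ℂ))) :=
    (hprim.irreducible_iff_irreducible_map_fraction_map (K := RatFunc ℂ)).1 hπ
  have hinj : Function.Injective (algebraMap ℂ[X] (RatFunc ℂ)) :=
    IsFractionRing.injective ℂ[X] (RatFunc ℂ)
  have hd : (π.map (algebraMap ℂ[X] (RatFunc ℂ))).degree ≠ 0 := by
    rw [degree_map_eq_of_injective hinj]
    intro h
    rw [natDegree_eq_of_degree_eq_some h] at hdeg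
    exact lt_irrefl _ hdeg
  obtain ⟨l, hl⟩ := IsAlgClosed.exists_aeval_eq_zero Om _ hd
  refine ⟨v, l, hv, fun p => ⟨fun hp => ?_, fun hp => ?_⟩⟩
  · rw [key] at hp
    have h1 : π.map (algebraMap ℂ[X] (RatFunc ℂ)) ∣ p.map (algebraMap ℂ[X] (RatFunc ℂ)) := by
      have h2 := minpoly.dvd (RatFunc ℂ) l hp
      have h3 := minpoly.dvd (RatFunc ℂ) l hl
      have h4 : Associated (π.map (algebraMap ℂ[X] (RatFunc ℂ))) (minpoly (RatFunc ℂ) l) := by
        have h5 : ¬ IsUnit (minpoly (RatFunc ℂ) l) := minpoly.not_isUnit (RatFunc ℂ) l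
        exact ((hirr.dvd_iff.1 h3).resolve_left h5)
      exact h4.dvd.trans h2
    exact hprim.dvd_of_fraction_map_dvd_fraction_map (K := RatFunc ℂ) h1
  · obtain ⟨r, rfl⟩ := hp
    rw [map_mul, key l π, hl, zero_mul]

end Vale.Agent.P297.H124
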