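import Vale.Agent.P297.H72.Third

/-!
Pull-back of divisors along a finite extension of function fields in one variable, and the
transfer of divisibility by three.
-/

set_option linter.unusedSectionVars false
set_option linter.style.haveILetI false

open IntermediateField Polynomial

namespace Vale.Agent.P297.H124

open Vale.Agent.P297
open Vale.Agent.P297.H72 (ThirdProp)

/-- `ThirdProp` for values in an arbitrary universe. -/
theorem third_apply {E : Type} [Field E] [Algebra ℂ E] [IsFF ℂ E] (h : ThirdProp E)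
    {Q : Type*} [AddCommGroup Q] (A : (PlaceOver ℂ E →₀ ℤ) →+ Q)
    (hdiv : ∀ F : E, A (div ℂ F) = 0)
    (hthree : ∀ w w' : PlaceOver ℂ E, (3 : ℤ) • A (Finsupp.single w 1) =
      (3 : ℤ) • A (Finsupp.single w' 1)) (w w' : PlaceOver ℂ E) :
    A (Finsupp.single w 1) = A (Finsupp.single w' 1) := by
  have hinj : Function.Injective (QuotientAddGroup.kerLift A) :=
    QuotientAddGroup.kerLift_injective A
  have hk : ∀ z, QuotientAddGroup.kerLift A (QuotientAddGroup.mk' A.ker z) = A z := fun z =>
    QuotientAddGroup.kerLift_mk A z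
  have h1 := h ((PlaceOver ℂ E →₀ ℤ) ⧸ A.ker) (QuotientAddGroup.mk' A.ker) (fun F => hinj (by
    rw [hk, hdiv, map_zero])) (fun w w' => hinj (by
    rw [map_zsmul, map_zsmul, hk, hk, hthree w w'])) w w'
  rw [← hk, ← hk, h1]

section

variable {K E : Type} [Field K] [Field E]
  [Algebra ℂ K] [Algebra ℂ E] [Algebra K E] [IsScalarTower ℂ K E] [IsFF ℂ K] [IsFF ℂ E]
  [FiniteDimensional K E]

/-- A uniformizer at a place. -/
noncomputable def unif (v : PlaceOver ℂ K) : K := v.1.exists_ord_eq_one.choose

theorem unif_ne (v : PlaceOver ℂ K) : unif v ≠ 0 := v.1.exists_ord_eq_one.choose_spec.1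

theorem unif_ord (v : PlaceOver ℂ K) : v.1.ord (unif v) = 1 :=
  v.1.exists_ord_eq_one.choose_spec.2

variable (K) in
/-- The ramification index. -/
noncomputable def ram (w : PlaceOver ℂ E) : ℤ :=
  w.1.ord (algebraMap K E (unif (restrictPlace K w)))

theorem ord_eq_zero_of_restrict (w : PlaceOver ℂ E) {x : K} (hx : x ≠ 0)
    (h : (restrictPlace K w).1.ord x = 0) : w.1.ord (algebraMap K E x) = 0 := by
  rw [Place.ord_eq_zero_iff _ hx, mem_restrictPlace_iff, mem_restrictPlace_iff, map_inv₀] at h
  exact (Place.ord_eq_zero_iff _ (by simpa using hx)).2 h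

theorem ord_algebraMap (w : PlaceOver ℂ E) (x : K) :
    w.1.ord (algebraMap K E x) = ram K w * (restrictPlace K w).1.ord x := by
  by_cases hx : x = 0
  · subst hx
    rw [map_zero, Place.ord_zero, Place.ord_zero, mul_zero]
  set v := restrictPlace K w with hv
  have hu := unif_ne v
  have huE : algebraMap K E (unif v) ≠ 0 := by simpa using hu
  have hxE : algebraMap K E x ≠ 0 := by simpa using hx
  obtain ⟨n, hn | hn⟩ := Int.eq_nat_or_neg (v.1.ord x)
  · have h1 : v.1.ord (x / unif v ^ n) = 0 := by
      rw [Place.ord_div _ hx (pow_ne_zero _ hu), Place.ord_pow, unif_ord, hn]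
      ring
    have h2 := ord_eq_zero_of_restrict w (div_ne_zero hx (pow_ne_zero n hu)) h1
    rw [map_div₀, map_pow, Place.ord_div _ hxE (pow_ne_zero _ huE), Place.ord_pow] at h2
    rw [hn]
    unfold ram
    rw [← hv]
    linarith
  · have h1 : v.1.ord (x * unif v ^ n) = 0 := by
      rw [Place.ord_mul _ hx (pow_ne_zero _ hu), Place.ord_pow, unif_ord, hn]
      ring
    have h2 := ord_eq_zero_of_restrict w (mul_ne_zero hx (pow_ne_zero n hu)) h1
    rw [map_mul, map_pow, Place.ord_mul _ hxE (pow_ne_zero _ huE), Place.ord_pow] at h2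
    rw [hn]
    unfold ram
    rw [← hv]
    linarith

theorem ram_pos (w : PlaceOver ℂ E) : 0 < ram K w := by
  unfold ram
  set v := restrictPlace K w with hv
  have hu := unif_ne v
  have huE : algebraMap K E (unif v) ≠ 0 := by simpa using hu
  have h1 : (unif v)⁻¹ ∉ v.1.ring := by
    rw [← v.1.ord_nonneg_iff (inv_ne_zero hu), Place.ord_inv, unif_ord]
    norm_num
  rw [hv, mem_restrictPlace_iff, ← hv, map_inv₀] at h1
  exact Place.ord_pos_of_inv_notMem _ h1

theorem finite_fibre (v : PlaceOver ℂ K) :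
    {w : PlaceOver ℂ E | restrictPlace K w = v}.Finite := by
  refine (finite_zeros (k := ℂ) (algebraMap K E (unif v))).subset ?_
  intro w hw
  rw [Set.mem_ofPred_eq] at hw ⊢
  rw [ord_algebraMap (K := K), hw, unif_ord, mul_one]
  exact ram_pos w

theorem finite_pull (z : PlaceOver ℂ K →₀ ℤ) :
    (Function.support fun w : PlaceOver ℂ E => ram K w * z (restrictPlace K w)).Finite := by
  have h1 : (⋃ v ∈ z.support, {w : PlaceOver ℂ E | restrictPlace K w = v}).Finite :=
    z.support.finite_toSet.biUnion fun v _ => finite_fibre v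
  refine h1.subset ?_
  intro w hw
  rw [Function.mem_support] at hw
  simp only [Set.mem_iUnion, Finsupp.mem_support_iff, Set.mem_ofPred_eq, exists_prop,
    exists_eq_right']
  exact right_ne_zero_of_mul hw

variable (K E) in
/-- Pull-back of divisors. -/
noncomputable def pull : (PlaceOver ℂ K →₀ ℤ) →+ (PlaceOver ℂ E →₀ ℤ) where
  toFun z := Finsupp.ofSupportFinite _ (finite_pull z)
  map_zero' := by
    ext w
    change ram K w * 0 = 0
    rw [mul_zero]
  map_add' z z' := by
    ext w
    change ram K w * (z _ + z' _) = ram K w * z _ + ram K w * z' _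
    rw [mul_add]

theorem pull_apply (z : PlaceOver ℂ K →₀ ℤ) (w : PlaceOver ℂ E) :
    pull K E z w = ram K w * z (restrictPlace K w) := rfl

theorem pull_div (x : K) : pull K E (div ℂ x) = div ℂ (algebraMap K E x) := by
  ext w
  rw [pull_apply, div_apply, div_apply, ord_algebraMap (K := K)]

/-- The fundamental equality. -/
theorem sum_ram (v : PlaceOver ℂ K) :
    ∑ᶠ w : {w : PlaceOver ℂ E // restrictPlace K w = v}, ram K w.1 = Module.finrank K E := by
  have hu := unif_ne v
  have huE : algebraMap K E (unif v) ≠ 0 := by simpa using hu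
  have h1 := congrArg (fun z => z v) (mapDomain_restrict (K := K) huE)
  simp only [mapDomain_apply_finsum, div_apply] at h1
  rw [Algebra.norm_algebraMap, Place.ord_pow, unif_ord, mul_one] at h1
  rw [← h1]
  refine finsum_congr fun w => ?_
  rw [ord_algebraMap (K := K), w.2, unif_ord, mul_one]

theorem deg_pull_single (v : PlaceOver ℂ K) :
    deg (pull K E (Finsupp.single v 1)) = Module.finrank K E := by
  classical
  rw [← sum_ram (E := E) v, deg_eq_finsum]
  have h1 : ∑ᶠ w : {w : PlaceOver ℂ E // restrictPlace K w = v}, ram K w.1 =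
      ∑ᶠ (w : PlaceOver ℂ E) (_ : restrictPlace K w = v), ram K w :=
    finsum_subtype_eq_finsum_cond (f := fun w : PlaceOver ℂ E => ram K w) _
  rw [h1]
  refine finsum_congr fun w => ?_
  rw [finsum_eq_if, pull_apply, Finsupp.single_apply]
  by_cases h : restrictPlace K w = v
  · rw [if_pos h, if_pos h.symm, mul_one]
  · rw [if_neg h, if_neg (Ne.symm h), mul_zero]

theorem eq_deg_smul {α Q : Type*} [AddCommGroup Q] (A : (α →₀ ℤ) →+ Q) (q : Q) (z : α →₀ ℤ)
    (h : ∀ w, z w ≠ 0 → A (Finsupp.single w 1) = q) : A z = deg z • q := by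
  classical
  have h1 : z = ∑ w ∈ z.support, Finsupp.single w (z w) := (Finsupp.sum_single z).symm
  have h2 : ∀ w ∈ z.support, A (Finsupp.single w (z w)) = deg (Finsupp.single w (z w)) • q := by
    intro w hw
    have h3 : Finsupp.single w (z w) = z w • Finsupp.single w 1 := by
      rw [Finsupp.smul_single, smul_eq_mul, mul_one]
    rw [h3, map_zsmul, h w (Finsupp.mem_support_iff.1 hw), map_zsmul, deg_single, smul_eq_mul,
      mul_one]
  calc A z = A (∑ w ∈ z.support, Finsupp.single w (z w)) := by rw [← h1]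
    _ = ∑ w ∈ z.support, A (Finsupp.single w (z w)) := map_sum _ _ _
    _ = ∑ w ∈ z.support, deg (Finsupp.single w (z w)) • q := Finset.sum_congr rfl h2
    _ = deg z • q := by rw [← Finset.sum_smul, ← map_sum, ← h1]

/-- Transfer of divisibility by three along an extension of degree at most two: if the subfield
has it, then the classes of two places agree as soon as the classes are constant on their
fibres. -/
theorem fibre_const (hK : ThirdProp K) (hn : Module.finrank K E ≤ 2) {Q : Type*} [AddCommGroup Q]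
    (A : (PlaceOver ℂ E →₀ ℤ) →+ Q) (hdiv : ∀ F : E, A (div ℂ F) = 0)
    (hthree : ∀ w w' : PlaceOver ℂ E, (3 : ℤ) • A (Finsupp.single w 1) =
      (3 : ℤ) • A (Finsupp.single w' 1)) {x y : PlaceOver ℂ E}
    (hx : ∀ x' : PlaceOver ℂ E, restrictPlace K x' = restrictPlace K x →
      A (Finsupp.single x' 1) = A (Finsupp.single x 1))
    (hy : ∀ y' : PlaceOver ℂ E, restrictPlace K y' = restrictPlace K y →
      A (Finsupp.single y' 1) = A (Finsupp.single y 1)) :
    A (Finsupp.single x 1) = A (Finsupp.single y 1) := by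
  have h3 : ∀ z : PlaceOver ℂ E →₀ ℤ, (3 : ℤ) • A z = deg z • ((3 : ℤ) • A (Finsupp.single x 1)) :=
    fun z => eq_deg_smul ((DistribSMul.toAddMonoidHom Q (3 : ℤ)).comp A) _ z
      (fun w _ => hthree w x)
  have h1 := third_apply hK (A.comp (pull K E)) (fun F => by
    rw [AddMonoidHom.comp_apply, pull_div, hdiv]) (fun v v' => by
    rw [AddMonoidHom.comp_apply, AddMonoidHom.comp_apply, h3 (pull K E (Finsupp.single v 1)),
      h3 (pull K E (Finsupp.single v' 1)), deg_pull_single, deg_pull_single])
      (restrictPlace K x) (restrictPlace K y)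
  rw [AddMonoidHom.comp_apply, AddMonoidHom.comp_apply] at h1
  have h2 : ∀ t : PlaceOver ℂ E, (∀ x' : PlaceOver ℂ E, restrictPlace K x' = restrictPlace K t →
      A (Finsupp.single x' 1) = A (Finsupp.single t 1)) →
      A (pull K E (Finsupp.single (restrictPlace K t) 1)) =
        (Module.finrank K E : ℤ) • A (Finsupp.single t 1) := by
    intro t ht
    rw [← deg_pull_single (E := E) (restrictPlace K t)]
    apply eq_deg_smul
    intro w hw
    apply ht
    by_contra hne
    apply hw
    rw [pull_apply, Finsupp.single_eq_of_ne hne, mul_zero]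
  rw [h2 x hx, h2 y hy] at h1
  have h4 := hthree x y
  have h5 : 0 < Module.finrank K E := Module.finrank_pos
  have h6 : Module.finrank K E = 1 ∨ Module.finrank K E = 2 := by omega
  rcases h6 with h6 | h6
  · rw [h6] at h1
    simpa using h1
  · rw [h6] at h1
    calc A (Finsupp.single x 1) = (3 : ℤ) • A (Finsupp.single x 1) -
          ((2 : ℕ) : ℤ) • A (Finsupp.single x 1) := by rw [← sub_smul]; norm_num
      _ = (3 : ℤ) • A (Finsupp.single y 1) - ((2 : ℕ) : ℤ) • A (Finsupp.single y 1) := by
          rw [h1, h4]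
      _ = A (Finsupp.single y 1) := by rw [← sub_smul]; norm_num

end

/-- Two places have the same restriction iff the subfield meets their rings in the same set. -/
theorem restrictPlace_eq_iff {K E : Type} [Field K] [Field E] [Algebra ℂ K] [Algebra ℂ E]
    [Algebra K E] [IsScalarTower ℂ K E] [IsFF ℂ K] [FiniteDimensional K E]
    (x y : PlaceOver ℂ E) : restrictPlace K x = restrictPlace K y ↔
      ∀ z : K, algebraMap K E z ∈ x.1.ring ↔ algebraMap K E z ∈ y.1.ring := by
  haveI : IsFF ℂ E := by
    obtain ⟨t, ht⟩ := IsFF.exists_transcendental (k := ℂ) (E := K)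
    haveI := IsFF.fin (k := ℂ) (E := K)
    refine ⟨Algebra.EssFiniteType.comp ℂ K E, ?_⟩
    have h1 := trdeg_add_eq ℂ K (A := E)
    rw [trdeg_eq_zero_iff.2 (inferInstance : Algebra.IsAlgebraic K E), add_zero,
      IsFF.td (k := ℂ) (E := K)] at h1
    exact h1.symm
  constructor
  · intro h z
    rw [← mem_restrictPlace_iff, ← mem_restrictPlace_iff, h]
  · intro h
    apply Subtype.ext
    apply Place.ext'
    apply SetLike.ext
    intro z
    rw [mem_restrictPlace_iff, mem_restrictPlace_iff]
    exact h z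

/-- An extension of function fields in one variable is finite. -/
theorem finite_of_isFF (K E : Type) [Field K] [Field E] [Algebra ℂ K] [Algebra ℂ E] [Algebra K E]
    [IsScalarTower ℂ K E] [IsFF ℂ K] [IsFF ℂ E] : FiniteDimensional K E := by
  haveI : Algebra.IsAlgebraic K E := by
    rw [← trdeg_eq_zero_iff]
    have h1 := trdeg_add_eq ℂ K (A := E)
    rw [IsFF.td (k := ℂ) (E := K), IsFF.td (k := ℂ) (E := E)] at h1
    by_contra hne
    have h2 : 1 ≤ Algebra.trdeg K E := Cardinal.one_le_iff_ne_zero.2 hne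
    have h3 : (1 : Cardinal) + 1 ≤ 1 := by
      calc (1 : Cardinal) + 1 ≤ 1 + Algebra.trdeg K E := by gcongr
        _ = 1 := h1
    have h4 : (1 : Cardinal) + 1 = 2 := by norm_num
    rw [h4] at h3
    exact absurd h3 (by norm_num)
  haveI := IsFF.fin (k := ℂ) (E := E)
  haveI : Algebra.EssFiniteType K E := Algebra.EssFiniteType.of_comp ℂ K E
  obtain ⟨s, hs⟩ := IntermediateField.fg_top K E
  haveI : FiniteDimensional K (IntermediateField.adjoin K (s : Set E)) :=
    IntermediateField.finiteDimensional_adjoin (fun x _ => Algebra.IsIntegral.isIntegral x)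
  rw [hs] at this
  exact (IntermediateField.topEquiv (F := K) (E := E)).toLinearEquiv.finiteDimensional

/-- A subfield of a function field in one variable containing a transcendental element is a
function field in one variable. -/
theorem isFF_sub {E : Type} [Field E] [Algebra ℂ E] [IsFF ℂ E] (E₀ : IntermediateField ℂ E)
    {t : E} (ht : Transcendental ℂ t) (hmem : t ∈ E₀) : IsFF ℂ E₀ := by
  let t₀ : E₀ := ⟨t, hmem⟩
  have ht₀ : Transcendental ℂ t₀ := by
    rw [← transcendental_algebraMap_iff (A := E) (algebraMap E₀ E).injective]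
    exact ht
  have ht₁ : Transcendental ℂ (AdjoinSimple.gen ℂ t₀) := by
    rw [← transcendental_algebraMap_iff (A := E₀) (algebraMap ℂ⟮t₀⟯ E₀).injective]
    exact ht₀
  haveI : IsFF ℂ ℂ⟮t₀⟯ := by
    refine ⟨IntermediateField.essFiniteType_iff.2 (IntermediateField.fg_adjoin_of_finite
        (Set.finite_singleton t₀)), le_antisymm ?_ ?_⟩
    · rw [← IsFF.td (k := ℂ) (E := E)]
      exact trdeg_le_of_injective (E₀.val.comp (ℂ⟮t₀⟯).val)
        (E₀.val.comp (ℂ⟮t₀⟯).val).toRingHom.injective
    · rw [Cardinal.one_le_iff_ne_zero, trdeg_ne_zero_iff]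
      exact ⟨_, ht₁⟩
  haveI : FiniteDimensional ℂ⟮t₀⟯ E := finite_of_isFF _ _
  exact IsFF.of_finiteDimensional ht₀ (FiniteDimensional.of_injective
    (IsScalarTower.toAlgHom ℂ⟮t₀⟯ E₀ E).toLinearMap (algebraMap E₀ E).injective)

/-- `fibre_const` for a subfield. -/
theorem fibre_const_sub {E : Type} [Field E] [Algebra ℂ E] [IsFF ℂ E] (E₀ : IntermediateField ℂ E)
    [IsFF ℂ E₀] [FiniteDimensional E₀ E] (hE₀ : ThirdProp E₀) (hn : Module.finrank E₀ E ≤ 2)
    {Q : Type*} [AddCommGroup Q]
    (A : (PlaceOver ℂ E →₀ ℤ) →+ Q) (hdiv : ∀ F : E, A (div ℂ F) = 0)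
    (hthree : ∀ w w' : PlaceOver ℂ E, (3 : ℤ) • A (Finsupp.single w 1) =
      (3 : ℤ) • A (Finsupp.single w' 1)) {x y : PlaceOver ℂ E}
    (hx : ∀ x' : PlaceOver ℂ E, restrictPlace E₀ x' = restrictPlace E₀ x →
      A (Finsupp.single x' 1) = A (Finsupp.single x 1))
    (hy : ∀ y' : PlaceOver ℂ E, restrictPlace E₀ y' = restrictPlace E₀ y →
      A (Finsupp.single y' 1) = A (Finsupp.single y 1)) :
    A (Finsupp.single x 1) = A (Finsupp.single y 1) :=
  fibre_const (K := E₀) hE₀ hn A hdiv hthree hx hy

end Vale.Agent.P297.H124
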